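import Vale.Agent.P167.N.Kit
import Vale.Agent.P167.N.H562.Q.CB3
import Vale.Agent.P167.H174.ND.Nb

/-! generated from Vale.Agent.P167.H174.ND.Nb (q < 1 port) -/

set_option autoImplicit false

namespace Vale.Agent.P167.N.H174.ND

open Vale.Agent.P167.H174.ND Vale.Agent.P167.H174

open Finset Filter Topology MeasureTheory Vale.Agent.P167 Vale.Agent.P167.FK

open Vale.Agent.P167.FKA (Loc Ind)

open Vale.Agent.P167.H519 (IsLim exists_Bq)

open Vale.Agent.P167.H166 (bxx mem_bxx)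

open Vale.Agent.P167.H135 (Cn CS near_ins exists_ball)

open Vale.Agent.P167.H562.GL (loc_integrable)

open Vale.Agent.P167.H562.QM

variable {Q : ℝ} {P : Measure Cfg}

/-- **Two comparable cut-offs.** -/
theorem nb_comp (hQ : Kit Q) (h : RSW Q) (hP : IsLim Q P) {Λ : ℝ} (hΛ : 1 ≤ Λ) :
    ∃ C d0 : ℝ, 0 ≤ C ∧ 0 < d0 ∧ ∀ d d' : ℝ, d0 ≤ d → d ≤ d' → d' ≤ Λ * d →
      NbP P d' ≤ NbP P d + C := by
  have hQ_pos := hQ.pos
  classical
  have hQ0 : 0 < Q := by linarith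
  have hPp : IsProbabilityMeasure P := hP.1
  obtain ⟨ε, C, ρ0, hε, hC, hρ0, hmac⟩ := Vale.Agent.P167.N.H562.QM.macro_B hQ h 1 Λ 1 0 one_pos (by linarith)
  refine ⟨C, ρ0, hC.le, hρ0, fun d d' hd hdd hd' => ?_⟩
  obtain ⟨A, hA⟩ := exists_ball (0 : ℤ × ℤ) d'
  obtain ⟨N, hN1, hN2, hN3⟩ := hmac d hd 0 A (fun v hv => ((hA v).1 hv).le.trans hd')
    (fun i => i.elim0)
  rw [one_mul] at hN1 hN2 hN3
  -- `N` is local
  obtain ⟨B, hB⟩ := exists_ball (0 : ℤ × ℤ) (d' + d + 1)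
  have hNr : ∀ v, Nr A d v → v ∈ B := by
    rintro v ⟨u, hu, h1⟩
    rw [hB]
    have h2 := (hA u).1 hu
    have h3 : nm (v - 0) ≤ nm (v - u) + nm (u - 0) := by
      have := H562.MAJ.nm_tri v u 0
      exact this
    have h4 : (nm (v - 0) : ℝ) ≤ nm (v - u) + nm (u - 0) := by exact_mod_cast h3
    linarith
  have hLoc : Loc B (fun ω => (N ω : ℝ)) := by
    intro ω ω' hw
    have : N ω = N ω' := hN1 ω ω' fun v hv _ => hw v (hNr v hv)
    simp only [this]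
  have hbd : ∫ ω, (N ω : ℝ) ∂P ≤ C := by
    refine le_of_forall_pos_le_add fun e he => ?_
    obtain ⟨R, hR⟩ := hP.2 B _ hLoc e he
    obtain ⟨R', -, hR'⟩ := exists_Bq B
    set D := Bq 0 (max R R') with hD
    have hBD : B ⊆ D := hR'.trans (H519.Bq_mono (le_max_right _ _))
    have h1 := hR D eta0 (H519.Bq_mono (le_max_left _ _)) f_good.2.1
    have h2 := hN3 D eta0 f_good.2.1 (fun y a _ h3 => oneC_sub fun v hv => hBD (hNr v (h3 v hv)))
      (fun _ => 1) (fun _ => zero_le_one) (fun _ _ _ => rfl)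
    rw [FKA.Ex_const hQ0, mul_one] at h2
    have h3 : Ex Q D eta0 (fun ω => (N ω : ℝ)) ≤
        Ex Q D eta0 (fun ω => 1 * Real.exp (1 * (N ω : ℝ))) := by
      refine FKA.Ex_mono hQ0 fun S _ => ?_
      rw [one_mul, one_mul]
      have := Real.add_one_le_exp (N (cf D eta0 S) : ℝ)
      linarith
    have h4 := (abs_le.1 h1).1
    linarith
  -- the difference
  obtain ⟨A1, hA1⟩ := Cn_Loc d (0 : ℤ × ℤ)
  obtain ⟨A2, hA2⟩ := Cn_Loc d' (0 : ℤ × ℤ)
  have hle : ∫ ω, Cn d' 0 ω ∂P ≤ ∫ ω, (Cn d 0 ω + (N ω : ℝ)) ∂P := by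
    refine integral_mono (loc_integrable hA2) ((loc_integrable hA1).add (loc_integrable hLoc))
      fun ω => ?_
    refine Cn_le_add (fun v hv => (hA v).2 hv) (hN2 ω) ?_
    obtain ⟨A', hA'⟩ := exists_ball (0 : ℤ × ℤ) d
    rw [H135.CS_sub (A := A') (fun v hv => (hA' v).2 hv)]
    exact Set.Finite.subset (Finset.finite_toSet (Vale.Agent.P167.H562.SML.smf A' d ω)) fun ℓ hℓ => hℓ.1
  rw [integral_add (loc_integrable hA1) (loc_integrable hLoc)] at hle
  unfold NbP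
  linarith

end Vale.Agent.P167.N.H174.ND
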