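import Vale.Agent.P167.N.Kit
import Vale.Agent.P167.N.QB.Cst
import Vale.Agent.P167.N.H562.Q.MQ1
import Vale.Agent.P167.N.QB.Far
import Vale.Agent.P167.N.QB.Maj
import Vale.Agent.P167.H174.ND.Maj

/-! generated from Vale.Agent.P167.H174.ND.Maj (q < 1 port) -/

set_option autoImplicit false

namespace Vale.Agent.P167.N.H174.ND

open Vale.Agent.P167.H174.ND Vale.Agent.P167.H174

open Finset Relation Vale.Agent.P167.BR Vale.Agent.P167.H562.SML Vale.Agent.P167.H45

open Vale.Agent.P167.QB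

open Vale.Agent.P167.E6 (IsPolygon Encloses dir face)

open Vale.Agent.P167.QX (lo hi exists_xy lo_xy hi_xy wB)

open Vale.Agent.P167.H562.MAJ (bigs Sm core Sc mem_core)

open Vale.Agent.P167.H562.QM (BumpsQ WtQ Far)

variable {D Z : Finset (ℤ × ℤ)} {ω : Cfg} {n : ℕ} {q : ZMod n → ℤ × ℤ} {A B : Finset Ed}
  {θ K : ℝ} {k l : ℕ} {r R : ℤ} {g : ℤ × ℤ → ℝ}

section

variable (hq : IsPolygon q) (hD : Encloses q D)

include hq hD

open Classical in
/-- **The majorant of the functional with a bump near the point charge.** -/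
theorem maj3 (hθ0 : 0 < θ) (hθ1 : Ang θ) (hKW : Vale.Agent.P167.N.QB.KW θ ≤ K) (hlk : l < k) (hln : l < n)
    (hSd : Sc K r) (hFd : Flt D (q l) (2 * r)) (h0d : q 0 ∉ sites (hbox (q l) (2 * r)))
    (hgd : ∀ z, |g z| ≤ K / (r : ℝ) ^ 2) (hsd : ∀ z, g z ≠ 0 → z ∈ sites (core K (q l) r))
    (htd : ∑ᶠ z, g z = θ) (ω : Cfg) {N : ℕ}
    (hN : (bigs D (hbox (q l) r) (dq K r) ω).card ≤ N) :
    |XG θ q D k (fun z => g z - dlt (q l) θ z) ω| ≤ MW θ ^ 2 *
      ((MW θ ^ 3) ^ N * Real.exp (-(Real.tan θ * Sm g (dq K r) ω))) := by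
  have hθ1_lt := hθ1.lt
  have hM2 := Vale.Agent.P167.N.QB.two_le_MW hθ0 hθ1
  have hM1 : 1 ≤ MW θ := by linarith
  have hrd := hSd.r8
  have hqd : q l ∈ sites (hbox (q l) r) := by rw [mem_sites_hbox (by omega)]; omega
  have hls : q l ∈ sites D :=
    sites_mono ((hbox_mono (by omega)).trans (hbox_sub hFd)) hqd
  set w' : Finset Ed → ℝ → ℝ := fun A t => wB θ (gB θ) q D k A (t - if Ard q l A then θ else 0)
    with hw'
  set w : Finset Ed → ℝ → ℝ := fun A t => if IsLp D A then H562.wt θ t else w' A t with hw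
  have hwt : Vale.Agent.P167.N.H562.QM.WtQ θ (MW θ) D w :=
    { a0 := hθ0
      a1 := hθ1
      M1 := hM1
      loop := fun A t hA => by rw [hw]; simp only; rw [if_pos hA]
      bd := fun A t => by
        rw [hw]
        simp only
        split_ifs with h
        · have := (Vale.Agent.P167.N.QB.wtq hθ0 hθ1 q D k).loop A t h
          rw [← this]
          exact Vale.Agent.P167.N.QB.wB_bd hθ0 hθ1 q D k A t
        · exact Vale.Agent.P167.N.QB.wB_bd hθ0 hθ1 q D k A _ }
  have hmaj := Vale.Agent.P167.N.QB.maj_gen hq hD (J := ({()} : Finset Unit)) (i := fun _ => l) (r := fun _ => r)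
    (g := fun _ => g) (t := fun _ => θ) hwt hKW (fun _ _ => hSd) (fun _ _ => hFd) (fun _ _ => hln)
    (fun _ _ => h0d) (fun _ _ => hgd) (fun _ _ => hsd) (fun _ _ => htd)
    (fun _ _ _ _ h => absurd rfl h) ω
  simp only [sum_singleton, prod_singleton] at hmaj
  have e0 : |XG θ q D k (fun z => g z - dlt (q l) θ z) ω| =
      ∏ A ∈ pcs ω D, |w A (mass D (q 0) g A)| := by
    unfold XG QX.XB
    rw [abs_prod]
    refine prod_congr rfl fun A hA => ?_
    rw [mass_sub', mass_dlt hq hD hln.le hA hls]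
    congr 1
    simp only [hw, hw']
    by_cases h : IsLp D A
    · rw [if_pos h, if_neg (ard_lp hq hD hA h), sub_zero]
      exact (Vale.Agent.P167.N.QB.wtq hθ0 hθ1 q D k).loop A _ h
    · rw [if_neg h]
  rw [e0]
  refine hmaj.trans ?_
  set F : Finset (Finset Ed) := (pcs ω D).filter
    (Far {()} D (fun _ => hbox (q l) r) (fun _ => dq K r)) with hFdef
  obtain ⟨a, hal, ha⟩ := off_pos hq hD ω ((hbox_mono (by omega)).trans (hbox_sub hFd))
    (econ_hbox (by omega)) hln.le hqd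
  have hFF : ∀ A ∈ F, A ∈ pcs ω D ∧ ¬ IsLp D A := fun A hA => by
    rw [hFdef, mem_filter] at hA
    exact ⟨hA.1, hA.2.1⟩
  have hfar := Vale.Agent.P167.N.QB.far_prod hq hD (ω := ω) (k := k) (F := F) (a := a) (b := l) (N := N)
    (Vale.Agent.P167.N.QB.sin_pos' hθ0 hθ1) hθ1.kit hM2
    (Vale.Agent.P167.N.QB.wB_bd hθ0 hθ1 q D k) (hal.trans hln.le) hln.le hFF ?_ ?_ ?_
  · have e1 : ∏ A ∈ F, |w A (if Ard q l A ∧ ¬ Vz (hbox (q l) r) A then θ else 0)| =
        ∏ A ∈ F, |wB θ (gB θ) q D k A ((if Ard q a A then θ else 0) -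
          if Ard q l A then θ else 0)| := by
      refine prod_congr rfl fun A hA => ?_
      obtain ⟨hA', hAl⟩ := hFF A hA
      simp only [hw, hw']
      rw [if_neg hAl]
      congr 2
      by_cases h' : Ard q a A
      · rw [if_pos h', if_pos ((ha A hA').2 h')]
      · rw [if_neg h', if_neg (fun h'' => h' ((ha A hA').1 h''))]
    rw [e1]
    have k1 : MW θ ^ (bigs D (hbox (q l) r) (dq K r) ω).card ≤ MW θ ^ N :=
      pow_le_pow_right₀ hM1 hN
    have p1 := Real.exp_pos (-(Real.tan θ * Sm g (dq K r) ω))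
    calc _ ≤ (MW θ ^ N * Real.exp (-(Real.tan θ * Sm g (dq K r) ω))) *
          MW θ ^ (2 + 2 * N) := by
          refine mul_le_mul (mul_le_mul_of_nonneg_right k1 p1.le) hfar
            (prod_nonneg fun _ _ => abs_nonneg _) (by positivity)
      _ = _ := by ring
  · have hsub : (pcs ω D).filter (fun A => ¬ IsLp D A ∧ A ∉ F) ⊆
        bigs D (hbox (q l) r) (dq K r) ω := by
      intro A hA
      rw [mem_filter] at hA
      obtain ⟨hA, hAl, hAF⟩ := hA
      rw [hFdef, mem_filter] at hAF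
      have h1 : ¬ Far {()} D (fun _ => hbox (q l) r) (fun _ => dq K r) A :=
        fun h' => hAF ⟨hA, h'⟩
      unfold Far at h1
      push Not at h1
      obtain ⟨j, -, h2, h3⟩ := h1 hAl
      exact mem_filter.2 ⟨hA, h2, h3⟩
    exact (card_le_card hsub).trans hN
  · intro A hA h1 _
    unfold Ard at h1
    omega
  · intro A hA h1 h2
    exact absurd ((ha A (hFF A hA).1).2 h1).1 h2

open Classical in
/-- **The functional is local on `Iso`.** -/
theorem XG_loc (hθ0 : 0 < θ) (hθ1 : Ang θ) (hF : Flt D (q l) R) (hr : 1 ≤ r)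
    (hrR : r ≤ R) (hl : l < n) (h0 : q 0 ∉ sites (hbox (q l) R)) (hk : (l : ℤ) + R ≤ k)
    (hg : ∀ z, g z ≠ 0 → z ∈ sites (hbox (q l) r)) (ht : ∑ᶠ z, g z = θ)
    (hI : Iso (q l) r R ω) :
    XG θ q D k (fun z => g z - dlt (q l) θ z) ω =
      FL θ (q l) r R 0 (fun z => g z - dlt (q l) θ z) ω := by
  have hθ1_lt := hθ1.lt
  have hc := Vale.Agent.P167.N.QB.cos_pos' hθ0 hθ1
  have hs := Vale.Agent.P167.N.QB.sin_pos' hθ0 hθ1
  have hR : 1 ≤ R := by omega
  have hqr : q l ∈ sites (hbox (q l) r) := by rw [mem_sites_hbox hr]; omega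
  have hls : q l ∈ sites D := sites_mono ((hbox_mono hrR).trans (hbox_sub hF)) hqr
  have hf : ∀ z, g z - dlt (q l) θ z ≠ 0 → z ∈ sites (hbox (q l) R) := by
    intro z hz
    refine sites_mono (hbox_mono hrR) ?_
    by_cases h1 : g z = 0
    · by_cases h2 : z = q l
      · rw [h2]; exact hqr
      · exact absurd (by rw [h1, dlt, if_neg h2, sub_zero]) hz
    · exact hg z h1
  rw [FL_eq (k := k) hq hD hF hR hrR hl h0 hk hf hI]
  unfold XG QX.XB
  rw [← prod_filter_mul_prod_filter_not (pcs ω D) (Vz (hbox (q l) r))]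
  have h2 : ∏ A ∈ (pcs ω D).filter (fun A => ¬ Vz (hbox (q l) r) A),
      wB θ (gB θ) q D k A (mass D (q 0) (fun z => g z - dlt (q l) θ z) A) = 1 := by
    refine prod_eq_one fun A hA => ?_
    rw [mem_filter] at hA
    rw [mass_sub', mass_dlt hq hD hl.le hA.1 hls, mass_off hq hD hF hr hrR hl.le hg ht hA.1 hA.2,
      sub_self, wB_hx hs (by linarith)]
  rw [h2, mul_one]
  refine prod_congr rfl fun A _ => ?_
  rw [zero_mul, zpow_zero, mul_one]

end

end Vale.Agent.P167.N.H174.ND
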