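import Vale.Agent.P167.N.Kit
import Vale.Agent.P167.N.QB.Cst
import Vale.Agent.P167.N.H174.ND.Maj
import Vale.Agent.P167.N.QB.Maj
import Vale.Agent.P167.N.QB.Mom
import Vale.Agent.P167.N.QB.Pr1
import Vale.Agent.P167.N.QB.Pr2
import Vale.Agent.P167.H174.ND.One

/-! generated from Vale.Agent.P167.H174.ND.One (q < 1 port) -/

set_option autoImplicit false

namespace Vale.Agent.P167.N.H174.ND

open Vale.Agent.P167.H174.ND Vale.Agent.P167.H174

open Finset Relation MeasureTheory Vale.Agent.P167.BR Vale.Agent.P167.FK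

open Vale.Agent.P167.QB

open Vale.Agent.P167.FKA (Ind Loc Ex_mono Ex_congr Ex_mul_left Ex_sub Ex_const Ex_nonneg abs_Ex_le)

open Vale.Agent.P167.H519 (IsLim)

open Vale.Agent.P167.E6 (IsPolygon Encloses)

open Vale.Agent.P167.H562.MAJ (bigs Sm core Sc)

open Vale.Agent.P167.H562.QM (FltQ NbP YQ YQ_pos)

variable {θ : ℝ} {P : Measure Cfg}

theorem one_core (hθ0 : 0 < θ) (hθ1 : Ang θ) (hR : RSW (2 * Real.cos θ))
    (hP : IsLim (2 * Real.cos θ) P) : ∃ α : ℝ, 0 < α ∧ ∀ K : ℝ,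
    Vale.Agent.P167.N.QB.KW θ ≤ K → ∃ C r0 : ℝ, 0 < C ∧ 1 ≤ r0 ∧ ∀ r R : ℤ, r0 ≤ r → 2 * r ≤ R → Sc K r ∧ ∀ (b : ℤ × ℤ) (g : ℤ × ℤ → ℝ),
      (∀ z, |g z| ≤ K / (r : ℝ) ^ 2) → (∀ z, g z ≠ 0 → z ∈ sites (core K b r)) →
      ∑ᶠ z, g z = θ → ∃ V : ℝ, ∀ (n : ℕ) (q : ZMod n → ℤ × ℤ) (D : Finset (ℤ × ℤ)),
        IsPolygon q → Encloses q D → ∀ (k l : ℕ) (η : Cfg), Good η → q l = b → l < n →
        FltQ D η b R false false → q 0 ∉ sites (hbox b R) → (l : ℤ) + R ≤ k →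
        |Ex (2 * Real.cos θ) D η (XG θ q D k (fun z => g z - dlt b θ z)) - V| ≤
          C * ((r : ℝ) / R) ^ α * Real.exp (-(Real.tan θ * θ * NbP P (dq K r))) := by
  have hθ1_lt := hθ1.lt
  have hc := Vale.Agent.P167.N.QB.cos_pos' hθ0 hθ1
  have hs := Vale.Agent.P167.N.QB.sin_pos' hθ0 hθ1
  have hpi := Real.pi_pos
  have hQ : Kit (2 * Real.cos θ) := hθ1.kit
  have hQ0 : 0 < 2 * Real.cos θ := by linarith
  have hM2 := Vale.Agent.P167.N.QB.two_le_MW hθ0 hθ1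
  have htan0 : 0 ≤ Real.tan θ := Real.tan_nonneg_of_nonneg_of_le_pi_div_two hθ0.le (by linarith)
  obtain ⟨α, Ca, hα, hCa, harm⟩ := Vale.Agent.P167.N.QB.arm_flat hQ hR
  obtain ⟨Km, β, Cm, hKm, hβ, hCm, hmix⟩ := Vale.Agent.P167.N.QB.mix_flat hQ hR
  obtain ⟨K0, hK0, hsc⟩ := scales (max Km 8) (le_trans hKm (le_max_left _ _))
  set γ : ℝ := min α β with hγ
  have hγ0 : 0 < γ := lt_min hα hβ
  refine ⟨γ / 3, by positivity, fun K hKW => ?_⟩
  have hK : 1 ≤ K := (Vale.Agent.P167.N.QB.KW_one hθ1).trans hKW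
  obtain ⟨C1, r1, hC1, hr1, hmom⟩ := Vale.Agent.P167.N.QB.yb_mom hQ hR hP hK (MW θ ^ 3) 1
    (Real.tan θ) (one_le_pow₀ (by linarith)) zero_le_one
  set CY : ℝ := MW θ ^ 2 * C1 with hCY
  have hCY0 : 0 < CY := by positivity
  have hK0' : (1 : ℝ) ≤ K0 := by exact_mod_cast hK0
  refine ⟨CY * (Ca * 8 ^ γ + Cm * 2 ^ γ) + CY * (K0 : ℝ) ^ (γ / 3), r1, by positivity, hr1,
    fun r R hr hrR => ?_⟩
  obtain ⟨hSc, hmom⟩ := hmom r hr
  refine ⟨hSc, fun b g hg hgs hgt => ?_⟩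
  obtain ⟨N, -, hN, hY⟩ := hmom b
  have hr8 := hSc.r8
  have hr0 : (0 : ℝ) < r := by exact_mod_cast (by omega : 0 < r)
  have hR0 : (0 : ℝ) < R := by exact_mod_cast (by omega : 0 < R)
  set E : ℝ := Real.exp (-(Real.tan θ * θ * NbP P (dq K r))) with hE
  have hE0 : 0 < E := Real.exp_pos _
  -- the majorant
  set Y : Cfg → ℝ := fun ω => MW θ ^ 2 * YQ (MW θ ^ 3) (Real.tan θ) N g (dq K r) ω with hYd
  have hY0 : ∀ ω, 0 ≤ Y ω := fun ω => by
    have := YQ_pos (M := MW θ ^ 3) (by positivity) (Real.tan θ) N g (dq K r) ω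
    simp only [hYd]
    positivity
  have hYm : ∀ (D : Finset (ℤ × ℤ)) (η : Cfg), Good η → FltQ D η b (2 * r) false false →
      ∀ G : Cfg → ℝ, (∀ ω, 0 ≤ G ω) → Ind (hbox b (2 * r)) G →
      Ex (2 * Real.cos θ) D η (fun ω => G ω * Y ω) ≤ CY * E * Ex (2 * Real.cos θ) D η G := by
    intro D η hη hF G hG0 hG
    have h1 := hY D η false false hη hF g hg hgs G hG0 hG (Real.tan θ) 1 htan0 le_rfl zero_le_one
      le_rfl
    simp only [Real.rpow_one, one_mul] at h1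
    rw [hgt] at h1
    have e1 : (fun ω => G ω * Y ω) = fun ω => MW θ ^ 2 *
        (G ω * YQ (MW θ ^ 3) (Real.tan θ) N g (dq K r) ω) := by
      funext ω
      simp only [hYd]
      ring
    rw [e1, Ex_mul_left]
    calc _ ≤ MW θ ^ 2 * (C1 * E * Ex (2 * Real.cos θ) D η G) :=
          mul_le_mul_of_nonneg_left h1 (by positivity)
      _ = _ := by rw [hCY]; ring
  have hgs' : ∀ z, g z ≠ 0 → z ∈ sites (hbox b r) := fun z hz => sites_mono hSc.core_sub (hgs z hz)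
  -- the majorant of the functional
  have hXY : ∀ (n : ℕ) (q : ZMod n → ℤ × ℤ) (D : Finset (ℤ × ℤ)), IsPolygon q → Encloses q D →
      ∀ (k l : ℕ) (η : Cfg), q l = b → l < n → FltQ D η b R false false →
      q 0 ∉ sites (hbox b R) → (l : ℤ) + R ≤ k → ∀ ω,
      |XG θ q D k (fun z => g z - dlt b θ z) ω| ≤ Y ω := by
    intro n q D hq hD k l η hlb hl hF h0 hk ω
    subst hlb
    exact maj3 hq hD hθ0 hθ1 hKW (by omega) hl hSc ((fltQ_flt hF).mono hrR)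
      (fun h => h0 (sites_mono (hbox_mono hrR) h)) hg hgs hgt ω (hN ω D)
  by_cases hbig : K0 * r ≤ R
  swap
  · -- comparable scales
    refine ⟨0, fun n q D hq hD k l η hη hlb hl hF h0 hk => ?_⟩
    rw [sub_zero]
    have h1 := hXY n q D hq hD k l η hlb hl hF h0 hk
    have h2 : |Ex (2 * Real.cos θ) D η (XG θ q D k (fun z => g z - dlt b θ z))| ≤ CY * E := by
      refine (abs_Ex_le hQ0 _).trans ?_
      refine (Ex_mono (G := fun ω => 1 * Y ω) hQ0 fun S _ => by rw [one_mul]; exact h1 _).trans ?_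
      have h3 := hYm D η hη (fltQ_mono hF hrR) (fun _ => 1) (fun _ => zero_le_one)
        (fun _ _ _ => rfl)
      rwa [Ex_const hQ0, mul_one] at h3
    refine h2.trans ?_
    have h4 : 1 ≤ (K0 : ℝ) ^ (γ / 3) * ((r : ℝ) / R) ^ (γ / 3) := by
      rw [← Real.mul_rpow (by linarith) (by positivity)]
      refine Real.one_le_rpow ?_ (by positivity)
      rw [mul_div_assoc', one_le_div hR0]
      exact_mod_cast (not_le.1 hbig).le
    have h5 : 0 ≤ CY * (Ca * 8 ^ γ + Cm * 2 ^ γ) * ((r : ℝ) / R) ^ (γ / 3) * E := by positivity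
    have h6 := mul_le_mul_of_nonneg_left h4 (by positivity : 0 ≤ CY * E)
    linarith
  -- the two intermediate scales
  obtain ⟨s1, s2, s3, g1, g2, g3⟩ := hsc r R (by omega) hbig
  set R₁ := S1 r R with hR1
  set R₂ := S2 r R with hR2
  have m1 : Km ≤ max Km 8 := le_max_left _ _
  have m2 : 8 ≤ max Km 8 := le_max_right _ _
  have t1 : 8 * r ≤ R₁ := le_trans (mul_le_mul_of_nonneg_right m2 (by omega)) s1
  have t2 : Km * R₁ ≤ R₂ := le_trans (mul_le_mul_of_nonneg_right m1 (by omega)) s2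
  have t2' : 8 * R₁ ≤ R₂ := le_trans (mul_le_mul_of_nonneg_right m2 (by omega)) s2
  have t3 : 8 * R₂ ≤ R := le_trans (mul_le_mul_of_nonneg_right m2 (by omega)) s3
  set Fl : Cfg → ℝ := FL θ b r R₁ 0 (fun z => g z - dlt b θ z) with hFl
  refine ⟨Ex (2 * Real.cos θ) (hbox b R₂) eta0 Fl, fun n q D hq hD k l η hη hlb hl hF h0 hk => ?_⟩
  have hXYq := hXY n q D hq hD k l η hlb hl hF h0 hk
  set X : Cfg → ℝ := XG θ q D k (fun z => g z - dlt b θ z) with hX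
  have hloc : ∀ ω, Iso b r R₁ ω → X ω = Fl ω := by
    intro ω hI
    subst hlb
    exact XG_loc hq hD hθ0 hθ1 ((fltQ_flt hF).mono (by omega)) (by omega) (by omega) hl
      (fun h => h0 (sites_mono (hbox_mono (by omega)) h)) (by omega) hgs' hgt hI
  have hFl0 : ∀ ω, ¬ Iso b r R₁ ω → Fl ω = 0 := fun ω hI => by
    simp only [hFl]
    unfold FL
    rw [if_neg hI]
  have hFlY : ∀ ω, |Fl ω| ≤ Y ω := by
    intro ω
    by_cases hI : Iso b r R₁ ω
    · rw [← hloc ω hI]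
      exact hXYq ω
    · rw [hFl0 ω hI, abs_zero]
      exact hY0 ω
  -- (1) the arm
  set A : Cfg → ℝ := {ω | HArm b (2 * r) (R₁ - 2) ω}.indicator 1 with hA
  have hA0 : ∀ ω, 0 ≤ A ω := fun ω => Set.indicator_nonneg (fun _ _ => zero_le_one) _
  have e1 : |Ex (2 * Real.cos θ) D η X - Ex (2 * Real.cos θ) D η Fl| ≤
      CY * E * (Ca * (((2 * r : ℤ) : ℝ) / ((R₁ - 2 : ℤ) : ℝ)) ^ α) := by
    rw [← Ex_sub]
    refine (abs_Ex_le hQ0 _).trans ?_
    have hpt : ∀ ω, |X ω - Fl ω| ≤ A ω * Y ω := by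
      intro ω
      by_cases hI : Iso b r R₁ ω
      · rw [hloc ω hI, sub_self, abs_zero]
        exact mul_nonneg (hA0 ω) (hY0 ω)
      · have h1 : A ω = 1 := by
          have : ω ∈ {ω | HArm b (2 * r) (R₁ - 2) ω} :=
            harm_of_not_iso (by omega) (by omega) (by omega) (by omega) hI
          rw [hA, Set.indicator_of_mem this]
          rfl
        rw [hFl0 ω hI, sub_zero, h1, one_mul]
        exact hXYq ω
    refine (Ex_mono (G := fun ω => A ω * Y ω) hQ0 fun S _ => hpt _).trans ?_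
    refine (hYm D η hη (fltQ_mono hF hrR) A hA0 (ind_harm _ _ _)).trans ?_
    refine mul_le_mul_of_nonneg_left ?_ (by positivity)
    have h3 := harm D η b (2 * r) (R₁ - 2) (fun _ => 1) (by omega) (by omega)
      (fltQ_mono hF (by omega)) hη (fun _ => zero_le_one) (fun _ _ _ => rfl)
    rw [Ex_const hQ0, mul_one] at h3
    simp only [one_mul] at h3
    exact h3
  -- (2) the mixing
  have e2 : |Ex (2 * Real.cos θ) D η Fl - Ex (2 * Real.cos θ) (hbox b R₂) eta0 Fl| ≤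
      Cm * ((R₁ : ℝ) / R₂) ^ β * (CY * E) := by
    have h1 := (hmix b R₁ R₂ (by omega) t2 Fl loc_FL).1 D η (fltQ_mono hF (by omega)) hη
      (fun _ => 1) (fun _ _ _ => rfl)
    simp only [mul_one, abs_one, Ex_const hQ0] at h1
    refine h1.trans ?_
    have hb : 0 ≤ Cm * ((R₁ : ℝ) / R₂) ^ β := by
      have : (0 : ℝ) ≤ (R₁ : ℝ) / R₂ := div_nonneg (by exact_mod_cast (by omega : 0 ≤ R₁))
        (by exact_mod_cast (by omega : 0 ≤ R₂))
      positivity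
    refine mul_le_mul_of_nonneg_left ?_ hb
    refine (Ex_mono (G := fun ω => 1 * Y ω) hQ0 fun S _ => by
      rw [one_mul]; exact hFlY _).trans ?_
    have h3 := hYm (hbox b R₂) eta0 f_good.2.1 (fltQ_box b (by omega)) (fun _ => 1)
      (fun _ => zero_le_one) (fun _ _ _ => rfl)
    rwa [Ex_const hQ0, mul_one] at h3
  -- the powers
  set t : ℝ := ((r : ℝ) / R) ^ (1 / 3 : ℝ) with ht
  have ht0 : 0 < t := Real.rpow_pos_of_pos (by positivity) _
  have htγ : t ^ γ = ((r : ℝ) / R) ^ (γ / 3) := by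
    rw [ht, ← Real.rpow_mul (by positivity)]
    congr 1
    ring
  have hb1 : (0 : ℝ) < R₁ := by exact_mod_cast (by omega : 0 < R₁)
  have hb2 : (0 : ℝ) < R₂ := by exact_mod_cast (by omega : 0 < R₂)
  have q1 : (((2 * r : ℤ) : ℝ) / ((R₁ - 2 : ℤ) : ℝ)) ^ α ≤ 8 ^ γ * t ^ γ := by
    have hb : (0 : ℝ) < ((R₁ - 2 : ℤ) : ℝ) := by exact_mod_cast (by omega : 0 < R₁ - 2)
    have hx0 : (0 : ℝ) < ((2 * r : ℤ) : ℝ) / ((R₁ - 2 : ℤ) : ℝ) :=
      div_pos (by push_cast; positivity) hb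
    have hx1 : ((2 * r : ℤ) : ℝ) / ((R₁ - 2 : ℤ) : ℝ) ≤ 1 :=
      div_le_one_of_le₀ (by exact_mod_cast (by omega : 2 * r ≤ R₁ - 2)) hb.le
    refine (Real.rpow_le_rpow_of_exponent_ge hx0 hx1 (min_le_left α β)).trans ?_
    rw [← Real.mul_rpow (by norm_num) ht0.le]
    refine Real.rpow_le_rpow hx0.le ?_ hγ0.le
    rw [div_le_iff₀ hb1] at g1
    rw [div_le_iff₀ hb]
    have h5 : (R₁ : ℝ) ≤ 2 * ((R₁ - 2 : ℤ) : ℝ) := by
      exact_mod_cast (by omega : R₁ ≤ 2 * (R₁ - 2))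
    have h6 := mul_le_mul_of_nonneg_left h5 (by positivity : 0 ≤ 2 * t)
    push_cast at h6 ⊢
    linarith
  have q2 : ((R₁ : ℝ) / R₂) ^ β ≤ 2 ^ γ * t ^ γ := by
    have hx1 : (R₁ : ℝ) / R₂ ≤ 1 := div_le_one_of_le₀ (by exact_mod_cast (by omega : R₁ ≤ R₂)) hb2.le
    refine (Real.rpow_le_rpow_of_exponent_ge (by positivity) hx1 (min_le_right α β)).trans ?_
    rw [← Real.mul_rpow (by norm_num) ht0.le]
    exact Real.rpow_le_rpow (by positivity) g2 hγ0.le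
  rw [htγ] at q1 q2
  have u1 := mul_le_mul_of_nonneg_left q1 (by positivity : 0 ≤ CY * E * Ca)
  have u2 := mul_le_mul_of_nonneg_left q2 (by positivity : 0 ≤ CY * E * Cm)
  have u3 : 0 ≤ CY * (K0 : ℝ) ^ (γ / 3) * ((r : ℝ) / R) ^ (γ / 3) * E := by positivity
  have h7 : |Ex (2 * Real.cos θ) D η X - Ex (2 * Real.cos θ) (hbox b R₂) eta0 Fl| ≤
      |Ex (2 * Real.cos θ) D η X - Ex (2 * Real.cos θ) D η Fl| +
      |Ex (2 * Real.cos θ) D η Fl - Ex (2 * Real.cos θ) (hbox b R₂) eta0 Fl| :=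
    abs_sub_le _ _ _
  linarith

end Vale.Agent.P167.N.H174.ND
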