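import Vale.Agent.P167.N.Kit
import Vale.Agent.P167.N.QB.Cst
import Vale.Agent.P167.N.H174.ND.Nb
import Vale.Agent.P167.N.H174.ND.One
import Vale.Agent.P167.N.QB.Maj
import Vale.Agent.P167.H174.ND.Two

/-! generated from Vale.Agent.P167.H174.ND.Two (q < 1 port) -/

set_option autoImplicit false

namespace Vale.Agent.P167.N.H174.ND

open Vale.Agent.P167.H174.ND Vale.Agent.P167.H174

open Finset Relation MeasureTheory Vale.Agent.P167.BR Vale.Agent.P167.FK

open Vale.Agent.P167.QB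

open Vale.Agent.P167.FKA (Ind Loc Ex_mono Ex_congr Ex_mul_left Ex_sub Ex_const Ex_nonneg abs_Ex_le)

open Vale.Agent.P167.H519 (IsLim)

open Vale.Agent.P167.E6 (IsPolygon Encloses)

open Vale.Agent.P167.H562.MAJ (bigs Sm core Sc)

open Vale.Agent.P167.H562.QM (FltQ NbP NbP_nonneg)

open Vale.Agent.P167.H436.ND (Kr Bp Ft Scl Win FltO kp Ex0)

variable {θ : ℝ} {P : Measure Cfg}

/-- **(TWO)** The functional of (PTP) is local. -/
theorem s_two (hθ0 : 0 < θ) (hθ1 : Ang θ) (hR : RSW (2 * Real.cos θ))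
    (hP : IsLim (2 * Real.cos θ) P) : Vale.Agent.P167.H436.ND.S_two θ P := by
  have hθ1_lt := hθ1.lt
  have hc := Vale.Agent.P167.N.QB.cos_pos' hθ0 hθ1
  have hpi := Real.pi_pos
  have hQ : Kit (2 * Real.cos θ) := hθ1.kit
  have hPp : IsProbabilityMeasure P := hP.1
  have htan0 : 0 ≤ Real.tan θ := Real.tan_nonneg_of_nonneg_of_le_pi_div_two hθ0.le (by linarith)
  obtain ⟨α, hα, hcore⟩ := one_core hθ0 hθ1 hR hP
  refine ⟨α, hα, fun J Cm hJ hCm K₁ => ?_⟩
  -- the constants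
  set K' : ℤ := max K₁ 1 with hK'
  have hK'1 : 1 ≤ K' := le_max_right _ _
  set κ : ℝ := ((K' ^ J : ℤ) : ℝ) with hκ
  have hκ1 : 1 ≤ κ := by
    have : (1 : ℤ) ≤ K' ^ J := one_le_pow₀ hK'1
    rw [hκ]
    exact_mod_cast this
  set K : ℝ := max (max (4 * θ * Cm * κ ^ 2) (2 * κ)) (Vale.Agent.P167.N.QB.KW θ) with hKd
  have hK2 : 2 * κ ≤ K := (le_max_right _ _).trans (le_max_left _ _)
  have hK1 : 1 ≤ K := by linarith
  have hK4 : 4 * θ * Cm * κ ^ 2 ≤ K := (le_max_left _ _).trans (le_max_left _ _)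
  obtain ⟨C, r0, hC, hr0, hmain⟩ := hcore K (le_max_right _ _)
  set Λ : ℝ := max 1 (33 * K / 400) with hΛ
  obtain ⟨Cn, d0, hCn, hd0, hnb⟩ := nb_comp hQ hR hP (Λ := Λ) (le_max_left _ _)
  obtain ⟨N0, hN0⟩ := exists_nat_ge (max r0 (33 * K * d0))
  refine ⟨2 * C * 4 ^ α * Real.exp (Real.tan θ * θ * Cn), (N0 : ℤ) + 1, ?_⟩
  intro n n' q q' D D' k l k' l' R η η' hW hW' hqq hlk hkn hDob hO hlk' hkn' hDob' hO' a hScl hst f hf
  -- the largest scale
  have ha1 : ∀ i, (N0 : ℤ) + 1 ≤ a i := hScl.pos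
  have hst' : ∀ i j : Fin J, (i : ℕ) + 1 = j → a j ≤ K' * a i := fun i j hij =>
    (hst i j hij).trans (mul_le_mul_of_nonneg_right (le_max_left _ _) (by have := ha1 i; omega))
  have hrat := scl_ratio hScl (by omega) hK'1 hst'
  set jm : Fin J := ⟨J - 1, by omega⟩ with hjm
  set am : ℤ := a jm with ham
  have hmax : ∀ i, a i ≤ am := by
    intro i
    rcases lt_or_eq_of_le (show i ≤ jm from by rw [Fin.le_def]; simp only [hjm]; omega) with h | h
    · have h1 := hScl.step i jm h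
      have := ha1 i
      omega
    · rw [ham, ← h]
  have ham1 : (N0 : ℤ) + 1 ≤ am := ha1 jm
  have ham8 : 8 * am ≤ R := hScl.top jm
  set r : ℤ := 2 * am with hr
  have hN0' : (N0 : ℝ) ≤ am := by exact_mod_cast (by omega : (N0 : ℤ) ≤ am)
  have hr0' : r0 ≤ (r : ℝ) := by
    have h1 : r0 ≤ (N0 : ℝ) := (le_max_left _ _).trans hN0
    rw [hr]
    push_cast
    linarith
  have ham0 : (0 : ℝ) < am := by exact_mod_cast (by omega : 0 < am)
  have hrr : (r : ℝ) = 2 * am := by rw [hr]; push_cast; ring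
  -- the bump
  set g : ℤ × ℤ → ℝ := fun z => ∑ i, θ / J * f i z with hgd
  have hJ0 : (0 : ℝ) < J := by exact_mod_cast hJ
  have hJs : ∑ _i : Fin J, θ / J = θ := by
    rw [sum_const, card_univ, Fintype.card_fin, nsmul_eq_mul]
    field_simp
  have hfb : ∀ i z, |f i z| ≤ Cm * κ ^ 2 / (am : ℝ) ^ 2 := by
    intro i z
    rw [abs_of_nonneg ((hf i).nonneg z)]
    refine ((hf i).le z).trans ?_
    have hai : (0 : ℝ) < a i := by exact_mod_cast (by have := ha1 i; omega : 0 < a i)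
    have h1 : (am : ℝ) ≤ κ * a i := by
      have := hrat i jm
      rw [hκ]
      exact_mod_cast this
    rw [div_le_div_iff₀ (by positivity) (by positivity)]
    have h2 : (am : ℝ) ^ 2 ≤ (κ * a i) ^ 2 := pow_le_pow_left₀ ham0.le h1 2
    calc Cm * (am : ℝ) ^ 2 ≤ Cm * (κ * a i) ^ 2 := mul_le_mul_of_nonneg_left h2 hCm.le
      _ = _ := by ring
  have hgb : ∀ z, |g z| ≤ K / (r : ℝ) ^ 2 := by
    intro z
    have h1 : |g z| ≤ ∑ _i : Fin J, θ / J * (Cm * κ ^ 2 / (am : ℝ) ^ 2) := by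
      refine (abs_sum_le_sum_abs _ _).trans (sum_le_sum fun i _ => ?_)
      rw [abs_mul, abs_of_nonneg (by positivity : 0 ≤ θ / J)]
      exact mul_le_mul_of_nonneg_left (hfb i z) (by positivity)
    refine h1.trans ?_
    rw [← sum_mul, hJs, hrr, mul_pow, mul_div_assoc', div_le_div_iff₀ (by positivity) (by positivity)]
    have := mul_le_mul_of_nonneg_right hK4 (by positivity : (0 : ℝ) ≤ (am : ℝ) ^ 2)
    linarith
  have hfs : ∀ i z, f i z ≠ 0 → (q l).1 - r ≤ z.1 ∧ z.1 ≤ (q l).1 + r ∧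
      ((q l).2 : ℝ) + r / K ≤ (z.2 : ℝ) ∧ z.2 ≤ (q l).2 + r := by
    intro i z hz
    obtain ⟨h1, h2, h3, h4⟩ := (hf i).supp z hz
    have h5 := hmax i
    have h6 := ha1 i
    refine ⟨by omega, by omega, ?_, by omega⟩
    have h7 : (am : ℝ) ≤ κ * a i := by
      have := hrat i jm
      rw [hκ]
      exact_mod_cast this
    have hai : (0 : ℝ) < a i := by exact_mod_cast (by omega : 0 < a i)
    have h8 : (r : ℝ) / K ≤ a i := by
      rw [div_le_iff₀ (by linarith), hrr]
      nlinarith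
    have h9 : (5 : ℝ) * a i ≤ 4 * ((z.2 : ℝ) - (q l).2) := by exact_mod_cast h3
    linarith
  have hgt : ∑ᶠ z, g z = θ := by
    have hfin : ∀ i ∈ (univ : Finset (Fin J)), (Function.support fun z => θ / J * f i z).Finite := by
      intro i _
      have h1 : (Function.support (f i)).Finite := by
        by_contra hinf
        have := (hf i).sum
        rw [finsum_of_infinite_support hinf] at this
        exact zero_ne_one this
      refine h1.subset fun z hz => ?_
      rw [Function.mem_support] at hz ⊢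
      exact fun h' => hz (by rw [h', mul_zero])
    simp only [hgd]
    rw [finsum_sum_comm _ _ hfin]
    have h2 : ∀ i : Fin J, ∑ᶠ z, θ / J * f i z = θ / J := by
      intro i
      rw [← mul_finsum, (hf i).sum, mul_one]
    rw [sum_congr rfl fun i _ => h2 i, hJs]
  -- the main estimate
  obtain ⟨hSc, hm⟩ := hmain r (R - 1) hr0' (by omega)
  obtain ⟨V, hV⟩ := hm (q l) g hgb (fun z hz => by
    obtain ⟨i, -, hi⟩ := exists_ne_zero_of_sum_ne_zero hz
    obtain ⟨h1, h2, h3, h4⟩ := hfs i z (fun h' => hi (by rw [h', mul_zero]))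
    exact hSc.supp h1 h2 h3 h4) hgt
  have hF : ∀ (b : ℤ × ℤ), Ft (fun _ => θ / J) f (dlt b (-θ)) = fun z => g z - dlt b θ z := by
    intro b
    funext z
    unfold Ft
    simp only [hgd]
    unfold dlt
    split_ifs <;> ring
  rw [hF]
  have e1 := hV n q D hW.poly hW.enc k l η hO.good rfl hW.l1 (fltQ_of hW hO)
    (fun h => hW.off (sites_mono (hbox_mono (by omega)) h)) (by omega)
  have e2 := hV n' q' D' hW'.poly hW'.enc k' l' η' hO'.good hqq.symm hW'.l1
    (by rw [hqq] at hO' ⊢; exact fltQ_of hW' hO')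
    (fun h => hW'.off (by rw [← hqq]; exact sites_mono (hbox_mono (by omega)) h)) (by omega)
  -- the exponents
  set d : ℝ := dq K r with hd
  have hdK : d * (33 * K) = am := by
    rw [hd]
    unfold dq
    rw [hrr]
    field_simp
    ring
  have hdd0 : d0 ≤ d := by
    have h1 : 33 * K * d0 ≤ (N0 : ℝ) := (le_max_right _ _).trans hN0
    have h2 : d0 * (33 * K) ≤ d * (33 * K) := by rw [hdK]; linarith
    exact le_of_mul_le_mul_right h2 (by linarith)
  have hd0' : 0 < d := lt_of_lt_of_le hd0 hdd0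
  have hnbi : ∀ i, NbP P (kp * a i) ≤ NbP P d + Cn := by
    intro i
    have hai : (a i : ℝ) ≤ am := by exact_mod_cast hmax i
    have h1 : kp * a i ≤ max d (kp * a i) := le_max_right _ _
    refine (NbP_mono hPp h1).trans (hnb d _ hdd0 (le_max_left _ _) (max_le ?_ ?_))
    · exact le_mul_of_one_le_left hd0'.le (le_max_left _ _)
    · have h2 : kp * a i ≤ 33 * K / 400 * d := by
        unfold kp
        have : 33 * K / 400 * d = am / 400 := by rw [← hdK]; ring
        rw [this]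
        linarith
      exact h2.trans (mul_le_mul_of_nonneg_right (le_max_right _ _) hd0'.le)
  have hEx0 : Ex0 θ P (fun _ : Fin J => θ / J) a ≤ Real.tan θ * θ * NbP P d +
      Real.tan θ * θ * Cn := by
    unfold Ex0
    have h1 : ∑ i : Fin J, θ / J * NbP P (kp * a i) ≤ ∑ _i : Fin J, θ / J * (NbP P d + Cn) :=
      sum_le_sum fun i _ => mul_le_mul_of_nonneg_left (hnbi i) (by positivity)
    rw [← sum_mul, hJs] at h1
    have := mul_le_mul_of_nonneg_left h1 htan0
    linarith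
  -- the ratio
  have hR0 : (0 : ℝ) < R := by exact_mod_cast (by omega : 0 < R)
  have hsup : (am : ℝ) / R ≤ ⨆ i, (a i : ℝ) / R :=
    le_ciSup (f := fun i => (a i : ℝ) / R) (Set.finite_range _).bddAbove jm
  have hrR : ((r : ℝ) / ((R - 1 : ℤ) : ℝ)) ^ α ≤ 4 ^ α * (⨆ i, (a i : ℝ) / R) ^ α := by
    have hb : (0 : ℝ) < ((R - 1 : ℤ) : ℝ) := by exact_mod_cast (by omega : 0 < R - 1)
    have h0 : (0 : ℝ) ≤ (am : ℝ) / R := by positivity
    rw [← Real.mul_rpow (by norm_num) (h0.trans hsup)]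
    refine Real.rpow_le_rpow (div_nonneg (by rw [hrr]; positivity) hb.le) ?_ hα.le
    refine le_trans ?_ (mul_le_mul_of_nonneg_left hsup (by norm_num))
    rw [hrr, mul_div_assoc', div_le_div_iff₀ hb hR0]
    have h5 : (R : ℝ) ≤ 2 * ((R - 1 : ℤ) : ℝ) := by
      exact_mod_cast (by omega : R ≤ 2 * (R - 1))
    have h6 := mul_le_mul_of_nonneg_left h5 (by positivity : 0 ≤ 2 * (am : ℝ))
    linarith
  set x := (⨆ i, (a i : ℝ) / R) ^ α with hx
  set X1 := Ex (2 * Real.cos θ) D η (XG θ q D k fun z => g z - dlt (q l) θ z)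
  set X2 := Ex (2 * Real.cos θ) D' η' (XG θ q' D' k' fun z => g z - dlt (q l) θ z)
  set E : ℝ := Real.exp (-(Real.tan θ * θ * NbP P d)) with hE
  have hE0 : 0 < E := Real.exp_pos _
  have e3 : |X1 - X2| ≤ 2 * (C * (4 ^ α * x) * E) := by
    have h1 : |X1 - X2| ≤ |X1 - V| + |X2 - V| := by
      have := abs_sub_le X1 V X2
      rwa [abs_sub_comm V X2] at this
    have h2 : C * ((r : ℝ) / ((R - 1 : ℤ) : ℝ)) ^ α * E ≤ C * (4 ^ α * x) * E :=
      mul_le_mul_of_nonneg_right (mul_le_mul_of_nonneg_left hrR hC.le) hE0.le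
    linarith
  have e4 : E * Real.exp (Ex0 θ P (fun _ : Fin J => θ / J) a) ≤
      Real.exp (Real.tan θ * θ * Cn) := by
    rw [hE, ← Real.exp_add]
    refine Real.exp_le_exp.2 ?_
    linarith
  have hx0 : 0 ≤ x := by
    have h0 : (0 : ℝ) ≤ (am : ℝ) / R := by positivity
    exact Real.rpow_nonneg (h0.trans hsup) _
  calc |X1 - X2| * Real.exp (Ex0 θ P (fun _ : Fin J => θ / J) a)
      ≤ 2 * (C * (4 ^ α * x) * E) * Real.exp (Ex0 θ P (fun _ : Fin J => θ / J) a) :=
        mul_le_mul_of_nonneg_right e3 (Real.exp_pos _).le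
    _ = 2 * C * 4 ^ α * x * (E * Real.exp (Ex0 θ P (fun _ : Fin J => θ / J) a)) := by ring
    _ ≤ 2 * C * 4 ^ α * x * Real.exp (Real.tan θ * θ * Cn) :=
        mul_le_mul_of_nonneg_left e4 (by positivity)
    _ = _ := by ring

end Vale.Agent.P167.N.H174.ND
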